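import Vale.Agent.P354CB.Defs2

/-!
The differential of a local isometry stays bounded along short segments.
-/

open scoped ContDiff
open Set Filter Topology Metric

namespace Vale.Agent.P354CB67

open Vale.Agent.P354n Vale.Agent.P354CB

theorem js (K3 : LK3) : JS := by
  intro k hk
  have k0 : 0 < k := one_pos.trans_le hk
  refine ⟨1 / (13 * k), by positivity, ?_⟩
  intro g D Xf g' D' Xf' hg hg' F z v m m' s hv hs hm h0 h t ht
  have hkv : k * ‖v‖ ≤ 1 / 13 := by
    have := mul_le_mul_of_nonneg_left hv k0.le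
    rwa [show k * (1 / (13 * k)) = 1 / 13 by field_simp] at this
  have sub : Icc 0 t ⊆ Ico 0 s := fun x hx => ⟨hx.1, hx.2.trans_lt ht.2⟩
  have hγ : ∀ x : ℝ, HasDerivAt (fun x : ℝ => z + x • v) v x := fun x => by
    simpa using ((hasDerivAt_id x).smul_const v).const_add z
  have cF : ∀ x ∈ Ico 0 s, ContDiffAt ℝ ∞ F (z + x • v) := fun x hx =>
    (h x hx).1.self_of_nhds.2.2.1
  let P : ℝ → _ := fun x => m'.comp (fderiv ℝ F (z + x • v))
  let P' : ℝ → _ := fun x => m'.comp (fderiv ℝ (fderiv ℝ F) (z + x • v) v)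
  have dP : ∀ x ∈ Ico 0 s, HasDerivAt P (P' x) x := fun x hx => by
    have h1 : DifferentiableAt ℝ (fderiv ℝ F) (z + x • v) :=
      ((cF x hx).fderiv_right (m := ∞) le_rfl).differentiableAt (by simp)
    have h2 := h1.hasFDerivAt.comp_hasDerivAt x (hγ x)
    exact (ContinuousLinearMap.compL ℝ _ _ _ m').hasFDerivAt.comp_hasDerivAt x h2
  have bP : ∀ x ∈ Ico 0 s, ‖P' x‖ ≤ k * ‖v‖ * (‖P x‖ + ‖P x‖ ^ 2) := fun x hx => by
    obtain ⟨h1, ⟨G, hG, b1⟩, ⟨G', hG', b2⟩⟩ := h x hx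
    refine ContinuousLinearMap.opNorm_le_bound _ (by positivity) fun b => ?_
    have e : P' x b = P x (G (z + x • v) v b) -
        m' (G' (F (z + x • v)) (m (P x v)) (m (P x b))) := by
      simp only [P, P', ContinuousLinearMap.comp_apply, (hm _).2]
      rw [K3.je hg hg' h1 hG hG', map_sub]
    have h3 : ‖P x (G (z + x • v) v b)‖ ≤ ‖P x‖ * (k * ‖v‖ * ‖b‖) :=
      ((P x).le_opNorm _).trans (mul_le_mul_of_nonneg_left (b1 v b) (norm_nonneg _))
    have h4 : ‖m' (G' (F (z + x • v)) (m (P x v)) (m (P x b)))‖ ≤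
        k * (‖P x‖ * ‖v‖) * (‖P x‖ * ‖b‖) :=
      (b2 _ _).trans (by gcongr <;> exact (P x).le_opNorm _)
    rw [e]
    refine (norm_sub_le _ _).trans ((add_le_add h3 h4).trans_eq ?_)
    ring
  have hP : ∀ x ∈ Icc 0 t, ‖P x‖ ≤ 2 + x :=
    image_norm_le_of_norm_deriv_right_lt_deriv_boundary (f' := P') (B := fun x => 2 + x)
      (B' := fun _ => 1) (fun x hx => (dP x (sub hx)).continuousAt.continuousWithinAt)
      (fun x hx => (dP x (sub ⟨hx.1, hx.2.le⟩)).hasDerivWithinAt)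
      (by simpa [P] using h0) (fun x => (hasDerivAt_id x).const_add 2) fun x hx e => by
        have h1 := bP x (sub ⟨hx.1, hx.2.le⟩)
        have h2 : x < 1 := (hx.2.trans ht.2).trans_le hs
        have h3 : ‖P x‖ + ‖P x‖ ^ 2 ≤ 12 := by
          rw [e]
          nlinarith [hx.1]
        have h4 := mul_le_mul hkv h3 (by positivity) (by norm_num)
        linarith
  have dQ : ∀ x ∈ Ico 0 s, HasDerivAt (fun x : ℝ => m' (F (z + x • v))) (P x v) x := fun x hx =>
    m'.hasFDerivAt.comp_hasDerivAt x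
      (((cF x hx).differentiableAt (by simp)).hasFDerivAt.comp_hasDerivAt x (hγ x))
  have t1 : t ≤ 1 := ht.2.le.trans hs
  have hQ := norm_image_sub_le_of_norm_deriv_right_le_segment (C := 3 * ‖v‖)
    (fun x hx => (dQ x (sub hx)).continuousAt.continuousWithinAt)
    (fun x hx => (dQ x (sub ⟨hx.1, hx.2.le⟩)).hasDerivWithinAt)
    (fun x hx => ((P x).le_opNorm v).trans (mul_le_mul_of_nonneg_right
      ((hP x ⟨hx.1, hx.2.le⟩).trans (by linarith [hx.2])) (norm_nonneg _))) t ⟨ht.1, le_rfl⟩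
  rw [zero_smul, add_zero, sub_zero, ← map_sub] at hQ
  refine hQ.trans ?_
  rw [le_div_iff₀ (by positivity)]
  nlinarith [mul_le_mul_of_nonneg_left t1 (mul_nonneg k0.le (norm_nonneg v)), ht.1]

end Vale.Agent.P354CB67
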